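import Vale.Agent.P018.Ranges
import Vale.Agent.P018.CritExplicit
import Vale.Agent.P018.FiveThree

open Filter Topology Polynomial

open Vale.Agent.P018 in
/-- The predicted asymptotic for `k`-power-free values of every irreducible polynomial of degree
`d`, for `d < 2 k` other than `(3, 2)`, and for larger degrees beyond that. -/
theorem Vale.Agent.Results.P018.PowerFreeRanges.result :
    ∀ (f : ℤ[X]) (d k : ℕ), f.natDegree = d → Irreducible (f.map (Int.castRingHom ℚ)) → 2 ≤ k →
      ((d < 2 * k ∧ (d, k) ≠ (3, 2)) ∨
        (9 ≤ d ∧ (d ≤ 2 * k ∨ (d : ℝ) / 4 + 2 * Real.log d ^ 2 ≤ k))) →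
      Tendsto (fun X : ℕ => (powerFreeCount f k X : ℝ) / X) atTop (𝓝 (density f k)) := by
  intro f d k hdeg hf hk h
  rcases Nat.lt_or_ge d 9 with h9 | h9
  · obtain ⟨h2, h3⟩ := h.resolve_right (fun h' => by omega)
    have hd0 : 1 ≤ d := by
      have := hf.natDegree_pos
      rw [natDegree_map_eq_of_injective Int.cast_injective] at this
      omega
    simp only [ne_eq, Prod.mk.injEq, not_and] at h3
    rcases eq_or_ne d 1 with rfl | hd1
    · exact asymptotic_of_lt f le_rfl hdeg hf hk (by omega)
    have key : ∀ k₀ : ℕ, 0 < k₀ → k₀ ≤ k → Crit d k₀ →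
        Tendsto (fun X : ℕ => (powerFreeCount f k X : ℝ) / X) atTop (𝓝 (density f k)) :=
      fun k₀ h0 hle hc => asymptotic_of_crit f (by omega) hdeg hf hk h0 hle hc
    have hd2 : 2 ≤ d := by omega
    clear hd0 hd1
    interval_cases d
    · exact key 2 (by omega) hk crit_two
    · exact key 3 (by omega) (by omega) crit_three
    · exact key 3 (by omega) (by omega) crit_four
    · rcases eq_or_ne k 3 with rfl | hk3
      · exact asymptotic_of_largeCount f (by omega) hf hk (largeCount_five_three f hdeg hf)
      · exact key 4 (by omega) (by omega) crit_five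
    · exact key 4 (by omega) (by omega) crit_six
    · exact key 4 (by omega) (by omega) crit_seven
    · exact key 5 (by omega) (by omega) crit_eight
  · have hh : d ≤ 2 * k ∨ (d : ℝ) / 4 + 2 * Real.log d ^ 2 ≤ k :=
      h.elim (fun h => Or.inl h.1.le) (fun h => h.2)
    by_cases h2 : d ≤ 2 * k
    · exact asymptotic_of_crit f (by omega) hdeg hf hk (k₀ := (d + 1) / 2) (by omega) (by omega)
        (crit_half d _ h9 (by omega) (by omega))
    · exact asymptotic_of_crit f (by omega) hdeg hf hk (by omega) le_rfl
        (crit_log d k h9 (by omega) (hh.resolve_left h2))
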